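import Vale.Agent.P235.ST.H317.Defs2
import Vale.Agent.P235.ST.H119.Clock
import Vale.Agent.P235.ST.H188.RowsPlan
import Vale.Agent.P235.ST.H611.Cost

/-! P235, (ST) O(1), rows r11 (stretch) and r12 (stretches). helper571. -/

namespace Vale.Agent.P235.STO.H571

open SimpleGraph

variable {V : Type}

/-! ### walk helpers -/

theorem first_hit {G : SimpleGraph V} (Q : V → Prop) : ∀ {a b : V} (g : G.Walk a b),
    (∀ v ∈ g.support, ¬ Q v) ∨
    ∃ (c : V) (g1 : G.Walk a c) (g2 : G.Walk c b), g = g1.append g2 ∧ Q c ∧
      ∀ v ∈ g1.support, v ≠ c → ¬ Q v := by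
  classical
  intro a b g
  induction g with
  | nil =>
    rename_i u
    by_cases h : Q u
    · exact Or.inr ⟨u, .nil, .nil, rfl, h, by
        intro v hv hne
        simp at hv
        exact absurd hv hne⟩
    · left
      intro v hv
      simp at hv
      rw [hv]; exact h
  | cons hadj p ih =>
    rename_i a' v' b'
    by_cases h : Q a'
    · exact Or.inr ⟨a', .nil, .cons hadj p, rfl, h, by
        intro v hv hne
        simp at hv
        exact absurd hv hne⟩
    · rcases ih with ih | ⟨c, g1, g2, e, hc, hg⟩
      · left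
        intro v hv
        simp only [Walk.support_cons, List.mem_cons] at hv
        rcases hv with hv | hv
        · rw [hv]; exact h
        · exact ih v hv
      · right
        refine ⟨c, .cons hadj g1, g2, by rw [e]; rfl, hc, ?_⟩
        intro v hv hne
        simp only [Walk.support_cons, List.mem_cons] at hv
        rcases hv with hv | hv
        · rw [hv]; exact h
        · exact hg v hv hne

theorem u_walk (W : LWorld V) {a b : V} (g : W.G.Walk a b) :
    ∀ v ∈ g.support, |W.u v - W.u a| ≤ (g.length : ℤ) := by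
  induction g with
  | nil =>
    intro v hv
    simp at hv
    rw [hv]; simp
  | cons hadj p ih =>
    rename_i a' v' b'
    intro v hv
    simp only [Walk.support_cons, List.mem_cons] at hv
    rcases hv with hv | hv
    · rw [hv]; simp; positivity
    · have h1 := ih v hv
      have h2 := W.unit a' v' hadj
      rw [Walk.length_cons]
      push_cast
      have h3 : W.u v - W.u a' = (W.u v - W.u v') + (W.u v' - W.u a') := by ring
      rw [h3]
      calc |(W.u v - W.u v') + (W.u v' - W.u a')| ≤ |W.u v - W.u v'| + |W.u v' - W.u a'| :=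
            abs_add_le _ _
        _ ≤ (p.length : ℤ) + 1 := by
            rw [abs_sub_comm (W.u v') (W.u a'), h2]; linarith

theorem d_nonneg (W : LWorld V) (x y : V) : 0 ≤ W.d x y := by
  unfold LWorld.d; positivity

theorem d_comm (W : LWorld V) (x y : V) : W.d x y = W.d y x := by
  unfold LWorld.d; rw [SimpleGraph.dist_comm]

theorem d_tri (W : LWorld V) (x y z : V) : W.d x z ≤ W.d x y + W.d y z := by
  unfold LWorld.d
  exact_mod_cast W.conn.dist_triangle

theorem d_le (W : LWorld V) {x y : V} (g : W.G.Walk x y) : W.d x y ≤ g.length := by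
  unfold LWorld.d
  exact_mod_cast SimpleGraph.dist_le g

theorem abs_u_le (W : LWorld V) (x y : V) : |(W.u y : ℝ) - W.u x| ≤ W.d x y := by
  obtain ⟨g, hg⟩ := W.conn.exists_walk_length_eq_dist x y
  have := u_walk W g y (g.end_mem_support)
  rw [hg] at this
  unfold LWorld.d
  exact_mod_cast this

theorem d_on_walk (W : LWorld V) {a b v : V} (g : W.G.Walk a b) (hv : v ∈ g.support) :
    W.d a v + W.d v b ≤ g.length := by
  classical
  have h := g.take_spec hv
  have h1 := d_le W (g.takeUntil v hv)
  have h2 := d_le W (g.dropUntil v hv)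
  have h3 : (g.takeUntil v hv).length + (g.dropUntil v hv).length = g.length := by
    rw [← Walk.length_append, h]
  have h4 : ((g.takeUntil v hv).length : ℝ) + ((g.dropUntil v hv).length : ℝ) = g.length := by
    exact_mod_cast h3
  linarith

/-- two points of a line -/
theorem d_line (W : LWorld V) {p a b : V} (hp : p ∈ W.N) (ha : a ∈ W.L p) (hb : b ∈ W.L p) :
    W.d a b ≤ |(W.u b : ℝ) - W.u a| := by
  rcases le_total (W.u a) (W.u b) with h | h
  · obtain ⟨q, hq, -⟩ := W.L_path p hp a ha b hb h
    have h1 := d_le W q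
    have h2 : ((q.length : ℤ) : ℝ) = (W.u b : ℝ) - W.u a := by rw [hq]; push_cast; ring
    have h3 : (q.length : ℝ) = (W.u b : ℝ) - W.u a := by exact_mod_cast h2
    rw [h3] at h1
    exact h1.trans (le_abs_self _)
  · obtain ⟨q, hq, -⟩ := W.L_path p hp b hb a ha h
    have h1 := d_le W q
    have h2 : ((q.length : ℤ) : ℝ) = (W.u a : ℝ) - W.u b := by rw [hq]; push_cast; ring
    have h3 : (q.length : ℝ) = (W.u a : ℝ) - W.u b := by exact_mod_cast h2
    rw [h3] at h1
    rw [d_comm, abs_sub_comm]
    exact h1.trans (le_abs_self _)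

theorem cost_nonneg {G : SimpleGraph V} (w : V → ℝ) {x y : V} (p : G.Walk x y) :
    0 ≤ cost w p := by
  induction p with
  | nil => simp [cost]
  | cons h p ih =>
    simp only [cost]
    positivity

/-! ### near the centre `z` -/

/-- `idx a ≤ idx y` and `a ∉ L y` when `a` is near the left point of a far level pair `(z, y)` -/
theorem left_of {W : LWorld V} {z y a : V} {t : ℝ} (hz : z ∈ W.N) (hy : y ∈ W.N) (ha : a ∈ W.N)
    (hu : W.u z = W.u y) (hi : W.idx z ≤ W.idx y) (ht : W.d z y = t)
    (hk : W.d z a < t / 2) : W.idx a ≤ W.idx y ∧ a ∉ W.L y := by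
  constructor
  · by_contra hlt
    push Not at hlt
    obtain ⟨g, hg⟩ := W.conn.exists_walk_length_eq_dist z a
    obtain ⟨m, hm, hmL⟩ := W.sep y hy z hz a ha hi hlt.le g
    have h1 := d_on_walk W g hm
    have h2 : (g.length : ℝ) = W.d z a := by unfold LWorld.d; exact_mod_cast hg
    have h3 := d_line W hy hmL (W.mem_L y hy)
    have h4 := abs_u_le W z m
    have h5 : |(W.u y : ℝ) - W.u m| ≤ W.d z m := by
      rw [abs_sub_comm, ← hu]; exact h4
    have h6 := d_tri W z m y
    have h7 := d_nonneg W m a
    linarith
  · intro haL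
    have h3 := d_line W hy haL (W.mem_L y hy)
    have h4 := abs_u_le W z a
    have h5 : |(W.u y : ℝ) - W.u a| ≤ W.d z a := by
      rw [abs_sub_comm, ← hu]; exact h4
    have h6 := d_tri W z a y
    linarith

/-- moving by at most `2^k` from the middle quarter of a band -/
theorem band_near (W : LWorld V) {k m : ℕ} {a v : V}
    (h1 : 6 * 2 ^ k ≤ W.pos k m a) (h2 : W.pos k m a ≤ 9 * 2 ^ k)
    (h3 : |W.u v - W.u a| ≤ 2 ^ k) :
    W.bi k m v = W.bi k m a ∧ 5 * 2 ^ k ≤ W.pos k m v ∧ W.pos k m v ≤ 10 * 2 ^ k := by
  unfold LWorld.pos LWorld.bi at *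
  have hk : (0 : ℤ) < 2 ^ k := by positivity
  have hth : (0 : ℤ) < th k := by unfold th; positivity
  have hA := Int.emod_add_mul_ediv (W.u a + m * 2 ^ k) (th k)
  set r := (W.u a + m * 2 ^ k) % th k with hr
  set q := (W.u a + m * 2 ^ k) / th k with hq
  have h4 := abs_le.1 h3
  have key : (W.u v + m * 2 ^ k) / th k = q ∧
      (W.u v + m * 2 ^ k) % th k = r + (W.u v - W.u a) := by
    rw [Int.ediv_emod_unique hth]
    refine ⟨by linarith, by linarith, ?_⟩
    have : th k = 16 * 2 ^ k := rfl
    rw [this]; linarith
  refine ⟨key.1, ?_, ?_⟩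
  · rw [key.2]; linarith
  · rw [key.2]; linarith

open Vale.Agent.P235.STO.H119 (reach_of_walk D_lip D_M)
open Vale.Agent.P235.STO.H188 (nxt_scale uns_le nxt_attain)
open Vale.Agent.P235.STO.H611 (cost_append vert hop_cost)


/-! ### the stretch -/

section main
variable [Fintype V] (W : LWorld V)

theorem kap_pos : 0 < kap := by unfold kap; positivity

/-- data of the centre -/
theorem centre {ρ : V → ℝ} (hρ : W.Scale ρ) {p a b : V} {k m : ℕ}
    (g : W.G.Walk a b) (hr : W.Reg ρ p k m g) (hn : 4 / kap < W.nxt ρ a) :
    ∃ (z y : V) (t : ℝ), z ∈ W.N ∧ y ∈ W.N ∧ W.u z = W.u y ∧ W.idx z ≤ W.idx y ∧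
      W.d z y = t ∧ 0 < t ∧ W.nxt ρ a ≤ t ∧ W.d a z ≤ kap * t ∧ t ≤ 22 * d1 * ρ p ∧
      (W.Bg k m).Reachable a z ∧ (W.Bg k m).Reachable z y ∧
      (W.D k m z : ℝ) ≤ W.D k m a + kap * t ∧ (W.D k m y : ℝ) ≤ W.D k m z + cp * t := by
  have hkp := kap_pos
  have hn0 : 0 < W.nxt ρ a := lt_trans (by positivity) hn
  obtain ⟨z, y, hu, he⟩ := nxt_attain W hn0
  have hle := uns_le W hρ hu
  obtain ⟨hz, hy, huzy, hizy, hr0, -, hserv⟩ := hu
  set t := W.d z y with ht
  have haz0 := d_nonneg W a z
  have hr0' : (0 : ℝ) < r0 := by unfold r0; positivity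
  have ht0 : 0 < t := lt_of_lt_of_le hr0' hr0
  have h1 : W.nxt ρ a ≤ t := by rw [he]; have : 0 ≤ W.d a z / kap := by positivity
                                linarith
  have h2 : W.d a z ≤ kap * t := by
    have h3 : 0 ≤ t - W.d a z / kap := by rw [← he]; exact hn0.le
    have h4 : W.d a z / kap ≤ t := by linarith
    rw [div_le_iff₀ hkp] at h4
    linarith
  have hball := hr.ball a g.start_mem_support
  have hpz := d_tri W p a z
  have hlip := hρ.lip p z
  have hbig := hr.big
  have hk : kap = 1 / 2 ^ 22 := rfl
  have hd1 : d1 = 1 / 2 ^ 100 := rfl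
  have hdl : dl = 1 / 2 ^ 25 := rfl
  -- bounds for `ρ z`
  have hρ1 : |ρ p - ρ z| ≤ ρ p / 4 + 2 ^ 22 + t := by
    refine hlip.trans ?_
    rw [div_le_iff₀ hkp]
    have : kap * 2 ^ 22 = 1 := by rw [hk]; norm_num
    nlinarith
  have hρ2 := abs_le.1 hρ1
  have hz1 : ρ z ≤ (4 / 3) * ρ p := by
    have : t ≤ 16 * (1 / 2 ^ 100) * ρ z := by rw [← hd1]; exact hle
    have h5 : (2 : ℝ) ^ 22 ≤ ρ p / 2 ^ 78 := by
      rw [le_div_iff₀ (by positivity)]
      calc (2 : ℝ) ^ 22 * 2 ^ 78 = 2 ^ 100 := by norm_num
        _ ≤ ρ p := hbig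
    have h6 : 0 < ρ p := lt_of_lt_of_le (by positivity) hbig
    norm_num at this h5 hρ2 ⊢
    linarith [hρ2.1, hρ2.2]
  have h6 : 0 < ρ p := lt_of_lt_of_le (by positivity) hbig
  have ht22 : t ≤ 22 * d1 * ρ p := by
    have hd1p : 0 < d1 := by rw [hd1]; positivity
    calc t ≤ 16 * d1 * ρ z := hle
      _ ≤ 16 * d1 * ((4 / 3) * ρ p) := by gcongr
      _ ≤ 22 * d1 * ρ p := by nlinarith [mul_pos hd1p h6]
  have hz2 : (2 / 3) * ρ p ≤ ρ z := by
    have h5 : (2 : ℝ) ^ 22 ≤ ρ p / 2 ^ 78 := by
      rw [le_div_iff₀ (by positivity)]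
      calc (2 : ℝ) ^ 22 * 2 ^ 78 = 2 ^ 100 := by norm_num
        _ ≤ ρ p := hbig
    rw [hd1] at ht22
    norm_num at ht22 h5 hρ2 ⊢
    linarith [hρ2.1, hρ2.2]
  -- thickness against t
  have hth : (th k : ℝ) = 16 * 2 ^ k := by unfold th; push_cast; ring
  have hkt : kap * t ≤ 2 ^ k := by
    have h7 : t ≤ (22 / 64) * (th k : ℝ) := by
      have := hr.lo
      nlinarith
    rw [hth] at h7
    rw [hk]
    have h8 : (0 : ℝ) < 2 ^ k := by positivity
    nlinarith
  -- the geodesic from a to z
  obtain ⟨q, hq⟩ := W.conn.exists_walk_length_eq_dist a z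
  have hqlen : (q.length : ℝ) = W.d a z := by unfold LWorld.d; exact_mod_cast hq
  have hqk : (q.length : ℤ) ≤ 2 ^ k := by
    have : (q.length : ℝ) ≤ 2 ^ k := by rw [hqlen]; linarith
    exact_mod_cast this
  have hband := hr.band a g.start_mem_support
  have hnear : ∀ v ∈ q.support, W.bi k m v = W.bi k m a ∧ 5 * 2 ^ k ≤ W.pos k m v ∧
      W.pos k m v ≤ 10 * 2 ^ k := fun v hv =>
    band_near W hband.1 hband.2 ((u_walk W q v hv).trans hqk)
  have hreach := reach_of_walk W k m q (fun v hv => (hnear v hv).1)
  have hzz := hnear z q.end_mem_support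
  have hmid : W.mid k m z := by
    unfold LWorld.mid
    have : (0 : ℤ) < 2 ^ k := by positivity
    constructor
    · linarith [hzz.2.1]
    · linarith [hzz.2.2]
  have hlist : inList (ρ z) k := by
    unfold inList
    constructor
    · have := hr.lo
      have hd1p : 0 < d1 := by rw [hd1]; positivity
      have h9 : d1 * ρ z ≤ d1 * ((4 / 3) * ρ p) := by gcongr
      nlinarith [mul_pos hd1p h6]
    · have := hr.hi
      have hdlp : 0 < dl := by rw [hdl]; positivity
      have h9 : dl * ((2 / 3) * ρ p) ≤ dl * ρ z := by gcongr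
      linarith
  have hns := hserv k m hr.m16 hlist
  unfold LWorld.serves at hns
  rw [not_and] at hns
  have hns2 := hns hmid
  push Not at hns2
  obtain ⟨hzy, hDD⟩ := hns2
  refine ⟨z, y, t, hz, hy, huzy, hizy, rfl, ht0, h1, h2, ht22, hreach.1, hzy, ?_, ?_⟩
  · have h10 := D_lip W k m hreach.1
    have h11 : (W.D k m z : ℤ) ≤ W.D k m a + q.length := by
      have := hreach.2
      have h12 : ((W.Bg k m).dist a z : ℤ) ≤ q.length := by exact_mod_cast this
      linarith
    have h13 : (W.D k m z : ℝ) ≤ W.D k m a + q.length := by exact_mod_cast h11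
    rw [hqlen] at h13
    linarith
  · linarith

end main

section final
variable [Fintype V] (W : LWorld V)

omit [Fintype V] in
theorem cost_cons_pos {G : SimpleGraph V} {a b : V} (g : G.Walk a b) (h : a ≠ b) :
    0 < g.length := by
  rcases Nat.eq_zero_or_pos g.length with h0 | h0
  · exact absurd (Walk.eq_of_length_eq_zero h0) h
  · exact h0

/-- one stretch -/
theorem stretch {ρ w : V → ℝ} (hρ : W.Scale ρ) (hw : W.Inv (W.nxt ρ) w) {p a b : V} {k m : ℕ}
    (g : W.G.Walk a b) (hg : g.IsPath) (hr : W.Reg ρ p k m g) (ha : a ∈ W.N) (hb : b ∈ W.N)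
    (hne : a ≠ b) :
    (W.D k m b : ℝ) ≤ W.D k m a + (5 / 4) * cost w g + 64 * d1 * ρ p ∨
    ∃ (c : V) (g1 : W.G.Walk a c) (g2 : W.G.Walk c b), g = g1.append g2 ∧ 0 < g1.length ∧
      c ∈ W.N ∧ (W.D k m c : ℝ) ≤ W.D k m a + (5 / 4) * cost w g1 := by
  classical
  rcases le_or_gt (W.nxt ρ a) (4 / kap) with hs | hs
  · -- (S)
    right
    cases g with
    | nil => exact absurd rfl hne
    | cons hadj g' =>
      rename_i v
      rcases first_hit (fun z => z ∈ W.N) g' with h | ⟨c, g1, g2, he, hc, hin⟩
      · exact absurd hb (h b g'.end_mem_support)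
      · have hsplit : Walk.cons hadj g' = (Walk.cons hadj g1).append g2 := by rw [he]; rfl
        have hpath : (Walk.cons hadj g1).IsPath := by
          rw [hsplit] at hg
          exact hg.of_append_left
        refine ⟨c, .cons hadj g1, g2, hsplit, by simp, hc, ?_⟩
        have hcost := hop_cost W (nxt_scale W ρ) hw (Walk.cons hadj g1) hpath (by
          intro z hz hza hzc
          simp only [Walk.support_cons, List.mem_cons] at hz
          rcases hz with hz | hz
          · exact absurd hz hza
          · exact hin z hz hzc) hs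
        have hreach := reach_of_walk W k m (Walk.cons hadj g1) (by
          intro z hz
          apply hr.same
          rw [hsplit, Walk.support_append]
          exact List.mem_append_left _ hz)
        have h10 := D_lip W k m hreach.1
        have h11 : (W.D k m c : ℤ) ≤ W.D k m a + (Walk.cons hadj g1).length := by
          have := hreach.2
          have h12 : ((W.Bg k m).dist a c : ℤ) ≤ (Walk.cons hadj g1).length := by
            exact_mod_cast this
          linarith
        have h13 : (W.D k m c : ℝ) ≤ W.D k m a + (Walk.cons hadj g1).length := by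
          exact_mod_cast h11
        linarith
  · -- (C)
    obtain ⟨z, y, t, hz, hy, huzy, hizy, hdt, ht0, hnt, haz, ht22, hRaz, hRzy, hDz, hDy⟩ :=
      centre W hρ g hr hs
    have hk : kap = 1 / 2 ^ 22 := rfl
    have hcp : cp = 1 / 2 ^ 21 := rfl
    have hbb : bb = 1 / 2 ^ 14 := rfl
    have hleft := left_of hz hy ha huzy hizy hdt (by
      rw [d_comm]
      refine lt_of_le_of_lt haz ?_
      rw [hk]; norm_num; linarith)
    have hnt0 : 0 ≤ W.nxt ρ a := (nxt_scale W ρ).nonneg a
    have hua := abs_u_le W a z
    -- consequence of (M)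
    have hM : ∀ c ∈ W.N, (W.Bg k m).Reachable a c → W.idx c ≤ W.idx y →
        (W.D k m c : ℝ) ≤ W.D k m a + (kap + cp) * t + |(W.u c : ℝ) - W.u z| := by
      intro c hc hac hcy
      have hcy' : (W.Bg k m).Reachable c y := hac.symm.trans (hRaz.trans hRzy)
      have h1 := D_M W k m hc hy hcy' hcy
      have h2 : (W.D k m c : ℝ) ≤ W.D k m y + |(W.u c : ℝ) - W.u y| := by exact_mod_cast h1
      rw [huzy]
      linarith
    set Q : V → Prop := fun v => v ∈ W.L y ∨ bb * t ≤ |(W.u v : ℝ) - W.u z| with hQ
    have hQa : ¬ Q a := by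
      rw [hQ]; simp only [not_or, not_le]
      refine ⟨hleft.2, ?_⟩
      rw [abs_sub_comm]
      refine lt_of_le_of_lt (hua.trans haz) ?_
      rw [hk, hbb]; norm_num; linarith
    have hidx : ∀ {c : V} (g1 : W.G.Walk a c), c ∈ W.N →
        (∀ v ∈ g1.support, v ≠ c → v ∉ W.L y) → W.idx c ≤ W.idx y := by
      intro c g1 hc hno
      by_contra hlt
      push Not at hlt
      obtain ⟨v, hv, hvL⟩ := W.sep y hy a ha c hc hleft.1 hlt.le g1
      by_cases hvc : v = c
      · rw [hvc] at hvL
        exact absurd ((W.L_sub y hy c hvL).2) (by omega)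
      · exact hno v hv hvc hvL
    rcases first_hit Q g with hnone | ⟨e, g1, g2, hge, hQe, hin⟩
    · -- last stretch
      left
      have hib : W.idx b ≤ W.idx y := hidx g hb (fun v hv _ hvL => hnone v hv (Or.inl hvL))
      have hRab := (reach_of_walk W k m g hr.same).1
      have h1 := hM b hb hRab hib
      have h2 : |(W.u b : ℝ) - W.u z| < bb * t := by
        by_contra h3
        push Not at h3
        exact hnone b g.end_mem_support (Or.inr h3)
      have h4 := cost_nonneg w g
      have h5 : (kap + cp + bb) * t ≤ t := by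
        rw [hk, hcp, hbb]; norm_num; linarith
      have h6 : 0 ≤ d1 * ρ p := by
        have : 0 < ρ p := lt_of_lt_of_le (by positivity) hr.big
        have : 0 < d1 := by unfold d1; positivity
        positivity
      linarith
    · right
      have hea : e ≠ a := by
        rintro rfl; exact hQa hQe
      have hg1len : 0 < g1.length := cost_cons_pos g1 hea.symm
      have hg2path : g2.IsPath := by
        rw [hge] at hg; exact hg.of_append_right
      by_cases heL : e ∈ W.L y
      · -- `e` on the line of `y`
        have heN : e ∈ W.N := (W.L_sub y hy e heL).1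
        have hie : W.idx e ≤ W.idx y := (W.L_sub y hy e heL).2
        refine ⟨e, g1, g2, hge, hg1len, heN, ?_⟩
        have hsame : ∀ v ∈ g1.support, W.bi k m v = W.bi k m a := by
          intro v hv
          apply hr.same
          rw [hge, Walk.support_append]
          exact List.mem_append_left _ hv
        have hRae := (reach_of_walk W k m g1 hsame).1
        have h1 := hM e heN hRae hie
        have hv1 := vert W (nxt_scale W ρ) hw g1
        by_cases hdev : bb * t ≤ |(W.u e : ℝ) - W.u z|
        · -- (beta) at `e`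
          have h2 : |(W.u e : ℝ) - W.u z| ≤ |(W.u e : ℝ) - W.u a| + kap * t := by
            have h3 : (W.u e : ℝ) - W.u z = (W.u e - W.u a) - (W.u z - W.u a) := by ring
            rw [h3]
            refine (abs_sub _ _).trans ?_
            linarith [hua.trans haz]
          have he1 : e1 * W.nxt ρ a ≤ e1 * t := by
            have : 0 ≤ e1 := by unfold e1; positivity
            gcongr
          have he1' : e1 = 1 / 2 ^ 120 := rfl
          rw [hk, hcp] at *
          rw [hbb] at hdev
          rw [he1'] at he1 hv1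
          norm_num at *
          linarith
        · -- (alpha)
          push Not at hdev
          have h2 := d_line W hy heL (W.mem_L y hy)
          have h3 : W.d e y ≤ |(W.u e : ℝ) - W.u z| := by
            refine h2.trans (le_of_eq ?_)
            rw [abs_sub_comm, huzy]
          have h4 := d_tri W z a y
          have h5 := d_tri W a e y
          have h6 : t ≤ W.d a z + W.d a y := by
            rw [d_comm W a z, ← hdt]; exact h4
          have hc2 : c2 = 1 / 2 ^ 10 := rfl
          have hC1 : C1 = 2 ^ 11 := rfl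
          have hd1 : d1 = 1 / 2 ^ 100 := rfl
          have h7 : C1 * d1 * W.nxt ρ a ≤ W.d a e := by
            have h8 : C1 * d1 * W.nxt ρ a ≤ C1 * d1 * t := by
              have : 0 ≤ C1 * d1 := by rw [hC1, hd1]; positivity
              gcongr
            refine h8.trans ?_
            rw [hC1, hd1]
            rw [hk] at haz
            rw [hbb] at hdev
            norm_num at *
            linarith
          have h8 := hw.lb a e g1 h7
          have hde : (1 - kap - bb) * t ≤ W.d a e := by linarith
          have hc2p : 0 ≤ c2 := by rw [hc2]; positivity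
          have h9 : c2 * ((1 - kap - bb) * t) ≤ cost w g1 :=
            le_trans (mul_le_mul_of_nonneg_left hde hc2p) h8
          have h10 : (kap + cp + bb) * t ≤ (5 / 4) * (c2 * ((1 - kap - bb) * t)) := by
            have h11 : (5 / 4) * (c2 * ((1 - kap - bb) * t)) - (kap + cp + bb) * t =
                ((5 / 4) * c2 * (1 - kap - bb) - (kap + cp + bb)) * t := by ring
            have h12 : 0 ≤ (5 / 4) * c2 * (1 - kap - bb) - (kap + cp + bb) := by
              rw [hc2, hk, hcp, hbb]; norm_num
            have := mul_nonneg h12 ht0.le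
            linarith
          linarith
      · -- deviation at `e`
        have hdev : bb * t ≤ |(W.u e : ℝ) - W.u z| := hQe.resolve_left heL
        rcases first_hit (fun v => v ∈ W.N) g2 with h | ⟨c, g3, g4, he4, hc, hin3⟩
        · exact absurd hb (h b g2.end_mem_support)
        · have hsplit : g = (g1.append g3).append g4 := by
            rw [hge, he4, Walk.append_assoc]
          have hic : W.idx c ≤ W.idx y := hidx (g1.append g3) hc (by
            intro v hv hvc hvL
            rw [Walk.mem_support_append_iff] at hv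
            rcases hv with hv | hv
            · by_cases hve : v = e
              · exact heL (hve ▸ hvL)
              · exact hin v hv hve (Or.inl hvL)
            · exact hin3 v hv hvc (W.L_sub y hy v hvL).1)
          have hsame : ∀ v ∈ (g1.append g3).support, W.bi k m v = W.bi k m a := by
            intro v hv
            apply hr.same
            rw [hsplit, Walk.support_append]
            exact List.mem_append_left _ hv
          have hRac := (reach_of_walk W k m (g1.append g3) hsame).1
          refine ⟨c, g1.append g3, g4, hsplit, by rw [Walk.length_append]; omega, hc, ?_⟩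
          have h1 := hM c hc hRac hic
          have hv1 := vert W (nxt_scale W ρ) hw g1
          have hv3 := vert W (nxt_scale W ρ) hw (g1.append g3)
          have hca := cost_append w g1 g3
          have hc3 := cost_nonneg w g3
          have h2 : |(W.u e : ℝ) - W.u z| ≤ |(W.u e : ℝ) - W.u a| + kap * t := by
            have h3 : (W.u e : ℝ) - W.u z = (W.u e - W.u a) - (W.u z - W.u a) := by ring
            rw [h3]
            refine (abs_sub _ _).trans ?_
            linarith [hua.trans haz]
          have h2' : |(W.u c : ℝ) - W.u z| ≤ |(W.u c : ℝ) - W.u a| + kap * t := by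
            have h3 : (W.u c : ℝ) - W.u z = (W.u c - W.u a) - (W.u z - W.u a) := by ring
            rw [h3]
            refine (abs_sub _ _).trans ?_
            linarith [hua.trans haz]
          have he1 : e1 * W.nxt ρ a ≤ e1 * t := by
            have : 0 ≤ e1 := by unfold e1; positivity
            gcongr
          have he1' : e1 = 1 / 2 ^ 120 := rfl
          rw [hk, hcp] at *
          rw [hbb] at hdev
          rw [he1'] at he1 hv1 hv3
          norm_num at *
          linarith

end final

end Vale.Agent.P235.STO.H571
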