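import Vale.Agent.P235.ST.H317.R12
import Vale.Agent.P235.ST.H571.Stretch

/-! P235, (ST) O(1), row r12 (`stretches`) from r11. helper571. -/

namespace Vale.Agent.P235.STO.H571

open SimpleGraph

variable {V : Type} [Fintype V] (W : LWorld V)

theorem stretch' : H317.Stretch W := fun hρ hw _ _ _ _ _ g hg hr ha hb hne =>
  stretch W hρ hw g hg hr ha hb hne

/-- all stretches -/
theorem stretches {ρ w : V → ℝ} (hρ : W.Scale ρ) (hw : W.Inv (W.nxt ρ) w) {p a b : V}
    {k m : ℕ} (g : W.G.Walk a b) (hg : g.IsPath) (hr : W.Reg ρ p k m g) (ha : a ∈ W.N)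
    (hb : b ∈ W.N) :
    (W.D k m b : ℝ) ≤ W.D k m a + (5 / 4) * cost w g + 64 * d1 * ρ p :=
  H317.stretches_of W (stretch' W) hρ hw g hg hr ha hb

end Vale.Agent.P235.STO.H571
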